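import Vale.Agent.P286E8.Ord
import Vale.Agent.P286ER2.Tr

/-!
The filtered basis of the transfer module.
-/

set_option autoImplicit false
set_option linter.all false

namespace Vale.Agent.P286EX.Tr

open CategoryTheory MvPolynomial Matrix TensorProduct Vale.Agent.P286 Vale.Agent.P286.St
  Vale.Agent.P286E Vale.Agent.P286EI Vale.Agent.P286EU

noncomputable section

theorem map_D_of {ι B B' : Type} [CommRing B] [Algebra ℂ B] [CommRing B'] [Algebra ℂ B']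
    [DecidableEq ι] [Fintype ι] {pd : Derivation ℂ B B} {pd' : Derivation ℂ B' B'}
    (t : DW.Tr ι pd pd') (h2 : t.c = 1) (h3 : t.g = 1) (h4 : t.l = 0) (k : Option ι) :
    DW.map t (DO.D _ k) = DO.D _ k := by
  rcases k with _ | a
  · exact (DW.map_du t).trans (by simp [h2, h4, DW.tu, DW.lg, DW.du])
  · exact (DW.map_d t a).trans (by
      rw [h2, h3, DW.lc_one, inv_one, Units.val_one, map_one, one_mul]; rfl)

theorem ex_deg (m : Fin 4 →₀ ℕ) : (ex m).degree = ∑ l, m l := by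
  rw [Finsupp.degree_eq_sum]
  exact (finSuccEquiv 3).symm.sum_comp fun l => m l

theorem ex_zero : ex 0 = 0 := rfl

theorem ex_succ (m : Fin 4 →₀ ℕ) (l : Fin 4) :
    ex (m + Finsupp.single l 1) = ex m + Finsupp.single (finSuccEquiv 3 l) 1 := by
  rw [← Finsupp.equivMapDomain_single]; exact Finsupp.ext fun _ => rfl

theorem ex_sur (α : Option (Fin 3) →₀ ℕ) : ∃ m, ex m = α :=
  (Finsupp.equivCongrLeft (finSuccEquiv 3)).surjective α

variable {I : Type} [SmallCategory I] {D : CD I} {G : Grp} {s : ℂ} (xd : XD D) (K : GK G)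
  {X Y : QO D}

theorem set_bs {M : Type} (f : TX G s X → M) (r : ℕ) :
    {p | ∃ α : Option (Fin 3) →₀ ℕ, α.degree ≤ r ∧ p = f (monomial α 1)} =
      {p | ∃ m : Fin 4 →₀ ℕ, ∑ l, m l ≤ r ∧ p = f (bs G s X m)} := Set.ext fun p =>
  ⟨fun ⟨α, h1, h2⟩ => by
    obtain ⟨m, rfl⟩ := ex_sur α
    exact ⟨m, ex_deg m ▸ h1, by rw [bs_apply]; exact h2⟩,
  fun ⟨m, h1, h2⟩ => ⟨ex m, (ex_deg m).symm ▸ h1, by rw [← bs_apply]; exact h2⟩⟩

theorem So_eq (X : QO D) (r : ℕ) : So (Option (Fin 3)) (RQ G s X) r =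
    Submodule.span (RQ G s X) {p | ∃ m : Fin 4 →₀ ℕ, ∑ l, m l ≤ r ∧ p = bs G s X m} :=
  congrArg _ (set_bs (fun p => p) r)

theorem bs_So (X : QO D) (m : Fin 4 →₀ ℕ) : bs G s X m ∈ So _ (RQ G s X) (∑ l, m l) := by
  rw [bs_apply]; exact mon_So (ex_deg m).le

theorem bs_zero (X : QO D) : bs G s X 0 = 1 := bs_apply X 0

theorem bs_succ (X : QO D) (m : Fin 4 →₀ ℕ) (l : Fin 4) : bs G s X (m + Finsupp.single l 1) =
    bs G s X m * MvPolynomial.X (finSuccEquiv 3 l) := by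
  rw [bs_apply, bs_apply, ex_succ, mon_X]

theorem act_bs (X : QO D) (v : Derivation ℂ (RQ G s X) (RQ G s X)) (c : Fin 4 → RQ G s X)
    (h1 : ∀ z, v (qx G s X z) = c 0 * qx G s X (xd.pd X.i z))
    (h2 : ∀ a, v (qY G s X a) = c a.succ) (m : Fin 4 →₀ ℕ) :
    act xd G s X v (bs G s X m) = ∑ l, c l • bs G s X (m + Finsupp.single l 1) := by
  rw [bs_apply, act_mon, ← (finSuccEquiv 3).sum_comp]
  refine Finset.sum_congr rfl fun l _ => ?_
  rw [bs_apply, ex_succ]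
  refine congrArg (· • _) ?_
  induction l using Fin.cases with
  | zero => rw [finSuccEquiv_zero]; exact c0_of xd X v h1
  | succ a => rw [finSuccEquiv_succ]; exact h2 a

theorem mu_Do {B : Type} [CommRing B] [Algebra ℂ B] (κ : ℂ) (pd : Derivation ℂ B B) (a : Fin 3) :
    mu κ pd a ∈ Do (wd (Fin 3) pd) 1 :=
  sum_mem fun b _ => sum_mem fun e _ => csmul_Do _ (yd_Do e b)

theorem ra0_ord (X : QO D) {r : ℕ} {q : DV xd X.i} (hq : q ∈ Do (wd (Fin 3) (xd.pd X.i)) r)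
    (m : Fin 4 →₀ ℕ) : ra0 xd G s X q (bs G s X m) ∈ Submodule.span (RQ G s X)
      {p | ∃ m' : Fin 4 →₀ ℕ, ∑ l, m' l ≤ ∑ l, m l + r ∧ p = bs G s X m'} :=
  So_eq X _ ▸ ra_So _ _ hq (bs_So X m)

theorem ll_ord (X : QO D) (a : Fin 3) (m : Fin 4 →₀ ℕ) : ll xd K s X a (bs G s X m) ∈
    Submodule.span (RQ G s X)
      {p | ∃ m' : Fin 4 →₀ ℕ, ∑ l, m' l ≤ ∑ l, m l + 1 ∧ p = bs G s X m'} :=
  neg_mem (ra0_ord xd X (mu_Do _ _ a) m)

theorem fib_c {i j : I} (h : i = j) : D.c (eqToHom h) = 1 ∧ xd.vfd.lr (eqToHom h) = 0 := by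
  subst h
  exact ⟨D.c_id i, lr_id xd i⟩

theorem t_bs1 (u : Ar G s X Y) (hu : Fib u) (h : QM.h u = 1) (m : Fin 4 →₀ ℕ) :
    t xd K u (bs G s X m) = bs G s Y m := by
  obtain ⟨e, he⟩ := hu
  rw [bs_apply, bs_apply]
  refine (tt_map _ _ _ _ (map_D_of _ (Units.ext ?_) ?_ ?_) _).trans
    ((map_monomial _ _ _).trans (congrArg _ (map_one _)))
  · rw [tr_c, he, (fib_c xd e).1, map_one, Units.val_one]
  · exact (congrArg (fun m => m.map (bL G s Y)) (ga_of K u h)).trans (map_one' _)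
  · rw [tr_l, he, (fib_c xd e).2, smul_zero, map_zero]

theorem t_bs0 (u : Ar G s X Y) : t xd K u (bs G s X 0) = bs G s Y 0 := by
  rw [bs_zero, bs_zero, t_unit]

theorem t_bs (u : Ar G s X Y) (m : Fin 4 →₀ ℕ) : t xd K u (bs G s X m) ∈ Submodule.span (RQ G s Y)
    {p | ∃ m' : Fin 4 →₀ ℕ, ∑ l, m' l ≤ ∑ l, m l ∧ p = bs G s Y m'} := by
  rw [← So_eq, bs_apply, ← ex_deg]
  exact tt_So _ (map_D_Do _) _

theorem t_bs' (u : Ar G s X Y) (m : Fin 4 →₀ ℕ) : bs G s Y m ∈ Submodule.span (RQ G s Y)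
    {p | ∃ m' : Fin 4 →₀ ℕ, ∑ l, m' l ≤ ∑ l, m l ∧ p = t xd K u (bs G s X m')} := by
  rw [← set_bs (t xd K u)]
  exact tt_So' (wd_cm _) (wd_cm _) (cp_tr xd K u) (D_span _) _ (bs_So Y m)

end

end Vale.Agent.P286EX.Tr
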