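import Vale.Agent.P286E8.Hb
import Vale.Agent.P286E8.Sbt
import Vale.Agent.P286EL.Sl1
import Vale.Agent.P286E5.Ce

/-!
# The generator without the equation: the family and its basis
-/

set_option linter.all false

namespace Vale.Agent.P286EX.Tr

open CategoryTheory Vale.Agent.P286 Vale.Agent.P286.St Vale.Agent.P286E

noncomputable section

variable {I : Type} [SmallCategory I] {D : CD I} {G : Grp} (xd : XD D) (K : GK G) (s : ℂ)

/-- The filtered basis of the transfer modules. -/
def sb : SB xd (sl xd K s) where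
  bs := bs G s
  act_bs := act_bs xd
  l_ord := ll_ord xd K
  t_one := t_bs1 xd K
  t_0 := t_bs0 xd K
  t_ord := t_bs xd K
  t_ord' := t_bs' xd K

theorem sb_bs (X : QO D) : (sb xd K s).bs X = bs G s X := rfl

variable {K} (U : Rep K)

/-- The differentials. -/
abbrev cU : ∀ X, Gl.CE (K.gs D s).κ ((SB.LU (sl xd K s) U).l X) :=
  fun X => Gl.ce ((SB.LU (sl xd K s) U).l_br X)

/-- The family. -/
abbrev PU : HG (K.gs D s) := (SB.LU (sl xd K s) U).hq (cU xd s U)

/-- The right action on the family. -/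
abbrev RU : Type 1 := R0 (sb xd K s) U (cU xd s U)

theorem PU_bc {X Y : QO D} (u : Ar G s X Y) :
    ∃ e' : Module.Basis (Finset (Fin 3) × (Fin 4 →₀ ℕ) × Fin U.n) (RQ G s Y) ((PU xd s U).K Y).M.V,
      ∀ γ, e' γ = ((PU xd s U).t u).f (((sb xd K s).V U (cU xd s U)).e X γ) :=
  (sb xd K s).bc U _ _ ((sb xd K s).V_he U _) u

end

end Vale.Agent.P286EX.Tr
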