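import Vale.Agent.P286E8.Sb
import Vale.Agent.P286E5.Hg
import Vale.Agent.P286EL.Pd0

/-!
# The basis of the generator; reduction of the generator to the right action
-/

set_option linter.all false

namespace Vale.Agent.P286EX

open CategoryTheory Matrix TensorProduct Vale.Agent.P286 Vale.Agent.P286.St Vale.Agent.P286.H847
  Vale.Agent.P286E Vale.Agent.P286EG Vale.Agent.P286.H710 Vale.Agent.P286EI
open Vale.Agent.P286EK (DGA DD TD)

noncomputable section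

variable {I : Type} [SmallCategory I] {D : CD I} {G : Grp} {s : ℂ} {K : GK G}

namespace SL

variable (L : SL (K.gs D s)) (c : ∀ X, Gl.CE (K.gs D s).κ (L.l X))

/-- The gauge family. -/
abbrev hq : HG (K.gs D s) := L.hg' (K.gs_ok D s) c

/-- The vacuum. -/
def vi : VI L (L.hq c) where
  ι X := L3.inl (RQ G s X) (L.M X)
  gr X x := L3.mem_gr.2 ⟨fun h => absurd rfl h, fun _ => rfl, fun _ => rfl, fun _ => rfl⟩
  act X v x := Gl.fc_inl (L.C X) v x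
  d X x := (c X).d_inl x
  lie X a x := (L.hg'_lie (K.gs_ok D s) c X a _).trans ((c X).L_inl a x)
  t u x := L.hg'_t_inl (K.gs_ok D s) c u x

/-- The basis. -/
def vb {n : ℕ} (b : ∀ X : QO D, Module.Basis ((Fin 4 →₀ ℕ) × Fin n) (RQ G s X) (L.M X)) :
    VB (L.hq c) n where
  e X := L3.bas (b X)
  i_mem X a S β h := (congrArg _ (L3.bas_apply (b X) S β)).trans
    ((L3.wg_sgl a S _).trans (if_pos h))
  i_ins X a S β h := (congrArg _ (L3.bas_apply (b X) S β)).trans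
    ((L3.wg_sgl a S _).trans ((if_neg h).trans (congrArg _ (L3.bas_apply (b X) _ β).symm)))

theorem vb_e {n : ℕ} (b : ∀ X : QO D, Module.Basis ((Fin 4 →₀ ℕ) × Fin n) (RQ G s X) (L.M X))
    (X : QO D) (β) : (L.vb c b).e X (∅, β) = (L.vi c).ι X (b X β) :=
  (L3.bas_apply (b X) ∅ β).trans (L3.sgl_empty _)

/-- The sign. -/
def sgq (X : QO D) : ((L.hq c).K X).M.V →ₗ[RQ G s X] ((L.hq c).K X).M.V :=
  L3.sg (RQ G s X) (L.M X)

/-- The contractions. -/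
def jq (X : QO D) (a : Fin 3) : ((L.hq c).K X).M.V →ₗ[RQ G s X] ((L.hq c).K X).M.V :=
  L3.ct (RQ G s X) (L.M X) a

theorem sgq_gr (X : QO D) (m : ℤ) (p) (h : p ∈ ((L.hq c).K X).M.gr m) :
    L.sgq c X p = (m.negOnePow : ℤ) • p := L3.sg_gr (R := RQ G s X) h

theorem jq_i (X : QO D) (a b p) : L.jq c X a ((L.hq c).i X b p) =
    (if a = b then p else 0) - (L.hq c).i X b (L.jq c X a p) := L3.ct_wg a b p

theorem jq_vi (X : QO D) (a x) : L.jq c X a ((L.vi c).ι X x) = 0 := L3.ct_inl a x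

end SL

variable {xd : XD D} {L : SL (K.gs D s)} (B : SB xd L) (U : Rep K)
  (c : ∀ X, Gl.CE (K.gs D s).κ ((SB.LU L U).l X))

/-- The basis of the generator. -/
def SB.V : VB ((SB.LU L U).hq c) U.n := (SB.LU L U).vb c (B.bU U)

theorem SB.V_he (X : QO D) (β) : (B.V U c).e X (∅, β) = ((SB.LU L U).vi c).ι X (B.bU U X β) :=
  (SB.LU L U).vb_e c _ X β

theorem SB.V_e (X : QO D) (m k) : (B.V U c).e X (∅, m, k) =
    L3.inl (RQ G s X) _ (SB.sg1 L U X k (B.bs X m)) :=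
  B.e_eq U _ _ (B.V_he U c) X m k

theorem SB.V_j (X : QO D) (a β) : (SB.LU L U).jq c X a ((B.V U c).e X (∅, β)) = 0 :=
  (congrArg _ (B.V_he U c X β)).trans ((SB.LU L U).jq_vi c X a _)

/-- The right action on the generator. -/
structure R0 : Type 1 where
  A : DD I
  T : TD A
  cf : ∀ i, D.C i →ₐ[ℂ] (A.A i).R
  cf_gr : ∀ i z, cf i z ∈ (A.A i).gr 0
  cf_d : ∀ i z, (A.A i).d (cf i z) = 0
  cf_τ : ∀ {i j : I} (α : i ⟶ j) z, (A.τ α).f (cf i z) = cf j (D.κ α z)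
  cf_F : ∀ i z, (T.F i).x * cf i z = cf i z * (T.F i).x
  u_eq : ∀ {i j : I} (α : i ⟶ j), (T.u α).1 = cf j (D.c α ^ 2)
  ra : ∀ X : QO D, (A.A X.i).R →ₗ[ℂ]
    (((SB.LU L U).hq c).K X).M.V →ₗ[RQ G s X] (((SB.LU L U).hq c).K X).M.V
  ra_one : ∀ X p, ra X 1 p = p
  ra_mul : ∀ X a b p, ra X (a * b) p = ra X b (ra X a p)
  ra_d : ∀ X a p, (((SB.LU L U).hq c).K X).M.d (ra X a p) =
    ra X a ((((SB.LU L U).hq c).K X).M.d p) + ra X ((A.A X.i).d a) ((SB.LU L U).sgq c X p)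
  ra_gr : ∀ X (m n : ℤ) p a, p ∈ (((SB.LU L U).hq c).K X).M.gr m → a ∈ (A.A X.i).gr n →
    ra X a p ∈ (((SB.LU L U).hq c).K X).M.gr (m + n)
  ra_act : ∀ X a v p, ra X a ((((SB.LU L U).hq c).K X).C.act v p) =
    (((SB.LU L U).hq c).K X).C.act v (ra X a p)
  ra_i : ∀ X a b p, ra X a (((SB.LU L U).hq c).i X b p) = ((SB.LU L U).hq c).i X b (ra X a p)
  ra_t : ∀ {X Y : QO D} (u : Ar G s X Y) a p, (((SB.LU L U).hq c).t u).f (ra X a p) =
    ra Y ((A.τ (QM.α u)).f a) ((((SB.LU L U).hq c).t u).f p)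
  F_e : ∀ X (m : Fin 4 →₀ ℕ) k, ra X (T.F X.i).x ((B.V U c).e X (∅, m, k)) -
      ∑ l, ((m l : RQ G s X) * Fj xd G s X l) • (B.V U c).e X (∅, m - Finsupp.single l 1, k) ∈
    Submodule.span (RQ G s X) {p | ∃ m' : Fin 4 →₀ ℕ, ∑ l, m' l + 2 ≤ ∑ l, m l ∧
      p = (B.V U c).e X (∅, m', k)}
  cf_ord : ∀ X z (m : Fin 4 →₀ ℕ) k, ra X (cf X.i z) ((B.V U c).e X (∅, m, k)) ∈
    (B.V U c).F0 X (∑ l, m l)
  ra_cf : ∀ X z k, ra X (cf X.i z) ((B.V U c).e X (∅, 0, k)) =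
    qx G s X z • (B.V U c).e X (∅, 0, k)

variable {B U c}

/-- The generator without the equation. -/
def R0.pd0 (R : R0 B U c) : PD0 K xd s U where
  A := R.A
  T := R.T
  cf := R.cf
  cf_gr := R.cf_gr
  cf_d := R.cf_d
  cf_τ := R.cf_τ
  cf_F := R.cf_F
  u_eq := R.u_eq
  P := (SB.LU L U).hq c
  sg := (SB.LU L U).sgq c
  sg_gr := (SB.LU L U).sgq_gr c
  int := (SB.LU L U).hg'_int _ c
  ra := R.ra
  ra_one := R.ra_one
  ra_mul := R.ra_mul
  ra_d := R.ra_d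
  ra_gr := R.ra_gr
  ra_act := R.ra_act
  ra_i := R.ra_i
  ra_t := R.ra_t
  e := (B.V U c).e
  e_gr := B.e_gr U _ _ (B.V_he U c)
  i_mem := (B.V U c).i_mem
  i_ins := (B.V U c).i_ins
  j := (SB.LU L U).jq c
  j_i := (SB.LU L U).jq_i c
  j_e := B.V_j U c
  j_t := B.j_t U _ _ (B.V_he U c) _ ((SB.LU L U).jq_i c) (B.V_j U c)
  cf_j X z := (B.V U c).j_comm _ ((SB.LU L U).jq_i c) (B.V_j U c) X _ (R.ra_i X _) (R.cf_ord X z)
  act_e := B.act_e U _ _ (B.V_he U c)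
  d_ord := B.d_ord U _ _ (B.V_he U c)
  F_e := R.F_e
  cf_ord := R.cf_ord
  t_one := B.t_one' U _ _ (B.V_he U c)
  t_u := B.t_u U _ _ (B.V_he U c)
  t_ord := B.t_F0 U _ _ (B.V_he U c)
  t_ord' := B.t_F0' U _ _ (B.V_he U c)
  bc := B.bc U _ _ (B.V_he U c)
  ra_cf := R.ra_cf

end

end Vale.Agent.P286EX
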