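import Vale.Agent.P286E8.Vac
import Vale.Agent.P286E5.SL
import Vale.Agent.P286EXU.Rey

/-!
# Filtered bases of the transfer modules and of their twists by a representation
-/

set_option linter.all false

namespace Vale.Agent.P286EX

open CategoryTheory Matrix TensorProduct Vale.Agent.P286 Vale.Agent.P286.St Vale.Agent.P286.H847
  Vale.Agent.P286E Vale.Agent.P286EG Vale.Agent.P286.H710

noncomputable section

theorem span_into {B M M' : Type} [CommRing B] [AddCommGroup M] [Module B M] [AddCommGroup M']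
    [Module B M'] (f : M →ₗ[B] M') {T : Set M} {N : Submodule B M'} (h : ∀ x ∈ T, f x ∈ N) {x : M}
    (hx : x ∈ Submodule.span B T) : f x ∈ N :=
  (Submodule.span_le (p := N.comap f)).2 h hx

variable {I : Type} [SmallCategory I] {D : CD I} {G : Grp} {s : ℂ} {K : GK G}

instance slG (L : SL (K.gs D s)) (X : QO D) : AddCommGroup (L.M X) := L.grp X

instance slC (L : SL (K.gs D s)) (X : QO D) : Module ℂ (L.M X) := L.mc X

instance slR (L : SL (K.gs D s)) (X : QO D) : Module (RQ G s X) (L.M X) := L.mr X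

instance slT (L : SL (K.gs D s)) (X : QO D) : IsScalarTower ℂ (RQ G s X) (L.M X) := L.tow X

/-- A basis of symbols. -/
structure SB (xd : XD D) (L : SL (K.gs D s)) : Type 1 where
  bs : ∀ X : QO D, Module.Basis (Fin 4 →₀ ℕ) (RQ G s X) (L.M X)
  act_bs : ∀ (X : QO D) (v : Derivation ℂ (RQ G s X) (RQ G s X)) (c : Fin 4 → RQ G s X),
    (∀ z, v (qx G s X z) = c 0 * qx G s X (xd.pd X.i z)) → (∀ a, v (qY G s X a) = c a.succ) →
    ∀ m, (L.C X).act v (bs X m) = ∑ l, c l • bs X (m + Finsupp.single l 1)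
  l_ord : ∀ (X : QO D) a (m : Fin 4 →₀ ℕ), L.l X a (bs X m) ∈
    Submodule.span (RQ G s X) {p | ∃ m' : Fin 4 →₀ ℕ, ∑ l, m' l ≤ ∑ l, m l + 1 ∧ p = bs X m'}
  t_one : ∀ {X Y : QO D} (u : Ar G s X Y), Fib u → QM.h u = 1 → ∀ m, L.t u (bs X m) = bs Y m
  t_0 : ∀ {X Y : QO D} (u : Ar G s X Y), L.t u (bs X 0) = bs Y 0
  t_ord : ∀ {X Y : QO D} (u : Ar G s X Y) (m : Fin 4 →₀ ℕ), L.t u (bs X m) ∈
    Submodule.span (RQ G s Y) {p | ∃ m' : Fin 4 →₀ ℕ, ∑ l, m' l ≤ ∑ l, m l ∧ p = bs Y m'}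
  t_ord' : ∀ {X Y : QO D} (u : Ar G s X Y) (m : Fin 4 →₀ ℕ), bs Y m ∈
    Submodule.span (RQ G s Y) {p | ∃ m' : Fin 4 →₀ ℕ, ∑ l, m' l ≤ ∑ l, m l ∧ p = L.t u (bs X m')}

/-- The vacuum of a gauge family. -/
structure VI (L : SL (K.gs D s)) (P : HG (K.gs D s)) : Type 1 where
  ι : ∀ X : QO D, L.M X →ₗ[RQ G s X] (P.K X).M.V
  gr : ∀ (X : QO D) x, ι X x ∈ (P.K X).M.gr 0
  act : ∀ (X : QO D) v x, (P.K X).C.act v (ι X x) = ι X ((L.C X).act v x)
  d : ∀ (X : QO D) x, (P.K X).M.d (ι X x) = 0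
  lie : ∀ (X : QO D) a x, lieOp (P.K X) (P.i X a) (ι X x) = ι X (L.l X a x)
  t : ∀ {X Y : QO D} (u : Ar G s X Y) x, (P.t u).f (ι X x) = ι Y (L.t u x)

namespace SB

variable {xd : XD D} {L : SL (K.gs D s)} (B : SB xd L) (U : Rep K)

/-- The twisted family. -/
abbrev LU (L : SL (K.gs D s)) (U : Rep K) : SL (K.gs D s) := L.rep (U.rs D s)

/-- The inclusion of the component `k`. -/
def sg1 (L : SL (K.gs D s)) (U : Rep K) (X : QO D) (k : Fin U.n) :
    L.M X →ₗ[RQ G s X] (LU L U).M X := LinearMap.single (RQ G s X) (fun _ => L.M X) k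

theorem sg1_apply (X : QO D) (k l : Fin U.n) (x : L.M X) :
    sg1 L U X k x l = if l = k then x else 0 := Pi.single_apply k x l

/-- The basis of the twisted module. -/
def bU (X : QO D) : Module.Basis ((Fin 4 →₀ ℕ) × Fin U.n) (RQ G s X) ((LU L U).M X) :=
  (Pi.basis fun _ : Fin U.n => B.bs X).reindex
    ((Equiv.sigmaEquivProd _ _).trans (Equiv.prodComm _ _))

theorem bU_apply (X : QO D) (m k) : B.bU U X (m, k) = sg1 L U X k (B.bs X m) := by
  exact (Module.Basis.reindex_apply (Pi.basis fun _ : Fin U.n => B.bs X) _ (m, k)).trans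
    (Pi.basis_apply (fun _ : Fin U.n => B.bs X) ⟨k, m⟩)

theorem act_sg1 (X : QO D) (v k x) :
    ((LU L U).C X).act v (sg1 L U X k x) = sg1 L U X k ((L.C X).act v x) := funext fun l => by
  refine (L.rep_act (U.rs D s) X v _ l).trans ?_
  rw [sg1_apply, sg1_apply]
  split_ifs
  exacts [rfl, map_zero (fcL (L.C X) v)]

theorem sg1_sum (X : QO D) (c : Fin U.n → RQ G s X) (x : L.M X) (l : Fin U.n) :
    (∑ j, c j • sg1 L U X j x) l = c l • x := by
  refine (Finset.sum_apply l _ _).trans ((Finset.sum_congr rfl fun j _ =>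
    congrArg (c j • ·) (sg1_apply U X j l x)).trans ?_)
  simp only [smul_ite, smul_zero, Finset.sum_ite_eq, Finset.mem_univ, if_true]

theorem l_sg1 (X : QO D) (a k x) : (LU L U).l X a (sg1 L U X k x) = sg1 L U X k (L.l X a x) +
    ∑ j, algebraMap ℂ (RQ G s X) (U.dr a j k) • sg1 L U X j x := funext fun l => by
  refine (L.rep_l (U.rs D s) X a _ l).trans (congrArg₂ (· + ·) ?_ ?_)
  · rw [sg1_apply, sg1_apply]
    split_ifs
    exacts [rfl, map_zero _]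
  · rw [sg1_sum, algebraMap_smul]
    simp only [sg1_apply, smul_ite, smul_zero, Finset.sum_ite_eq', Finset.mem_univ, if_true]
    rfl

theorem t_sg1 {X Y : QO D} (u : Ar G s X Y) (k x) : (LU L U).t u (sg1 L U X k x) =
    ∑ j, U.at (qh u) (qpt u) j k • sg1 L U Y j (L.t u x) := funext fun l => by
  refine (L.rep_t (U.rs D s) u _ l).trans ?_
  rw [sg1_sum]
  simp only [sg1_apply, apply_ite (L.t u), map_zero, smul_ite, smul_zero, Finset.sum_ite_eq',
    Finset.mem_univ, if_true]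
  rfl

theorem sg1_t {X Y : QO D} (u : Ar G s X Y) (k x) : sg1 L U Y k (L.t u x) =
    ∑ j, Un.ri U u j k • (LU L U).t u (sg1 L U X j x) := by
  simp only [t_sg1, Finset.smul_sum, smul_smul]
  rw [Finset.sum_comm]
  simp only [← Finset.sum_smul, mul_comm (Un.ri U u _ _), ← Matrix.mul_apply, Un.rr_ri U u,
    one_apply, ite_smul, one_smul, zero_smul, Finset.sum_ite_eq', Finset.mem_univ, if_true]

section Fields

variable {P : HG (K.gs D s)} (W : VI (LU L U) P) (V : VB P U.n)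
  (he : ∀ (X : QO D) β, V.e X (∅, β) = W.ι X (B.bU U X β))

include he

theorem e_eq (X : QO D) (m k) : V.e X (∅, m, k) = W.ι X (sg1 L U X k (B.bs X m)) :=
  (he X _).trans (congrArg _ (B.bU_apply U X m k))

theorem mem_F0 (X : QO D) (k) {r : ℕ} {x : L.M X} (h : x ∈ Submodule.span (RQ G s X)
    {p | ∃ m' : Fin 4 →₀ ℕ, ∑ l, m' l ≤ r ∧ p = B.bs X m'}) :
    W.ι X (sg1 L U X k x) ∈ V.F0 X r := by
  refine span_into (W.ι X ∘ₗ sg1 L U X k) ?_ h
  rintro _ ⟨m, hm, rfl⟩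
  exact Submodule.subset_span ⟨m, k, hm, (B.e_eq U W V he X m k).symm⟩

theorem e_gr (X : QO D) (S : Finset (Fin 3)) (β) :
    V.e X (S, β) ∈ (P.K X).M.gr (-(S.card : ℤ)) :=
  V.e_gr (fun X β => he X β ▸ W.gr X _) X S β

theorem act_e (X : QO D) (v : Derivation ℂ (RQ G s X) (RQ G s X)) (c : Fin 4 → RQ G s X)
    (h1 : ∀ z, v (qx G s X z) = c 0 * qx G s X (xd.pd X.i z))
    (h2 : ∀ a, v (qY G s X a) = c a.succ) (S m k) :
    (P.K X).C.act v (V.e X (S, m, k)) = ∑ l, c l • V.e X (S, m + Finsupp.single l 1, k) :=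
  V.act_e (fun m k => by
    simp only [B.e_eq U W V he, W.act X, act_sg1, B.act_bs X v c h1 h2, map_sum, map_smul]) S m k

theorem d_e0 (X : QO D) (β) : (P.K X).M.d (V.e X (∅, β)) = 0 := he X β ▸ W.d X _

theorem lie_e0 (X : QO D) (a m k) :
    lieOp (P.K X) (P.i X a) (V.e X (∅, m, k)) ∈ V.F0 X (∑ l, m l + 1) := by
  rw [B.e_eq U W V he, W.lie, l_sg1, map_add, map_sum]
  refine add_mem (B.mem_F0 U W V he X k (B.l_ord X a m)) (sum_mem fun j _ => ?_)
  rw [map_smul]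
  exact Submodule.smul_mem _ _
    (B.mem_F0 U W V he X j (Submodule.subset_span ⟨m, Nat.le_succ _, rfl⟩))

theorem d_ord (X : QO D) (S : Finset (Fin 3)) (m : Fin 4 →₀ ℕ) (k) :
    (P.K X).M.d (V.e X (S, m, k)) ∈ V.Fl X (∑ l, m l + 1) S.card :=
  V.d_ord (B.d_e0 U W V he) (B.lie_e0 U W V he) X S m k

theorem t_e0 {X Y : QO D} (u : Ar G s X Y) (m k) : (P.t u).f (V.e X (∅, m, k)) =
    ∑ j, U.at (qh u) (qpt u) j k • W.ι Y (sg1 L U Y j (L.t u (B.bs X m))) := by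
  simp only [B.e_eq U W V he, W.t u, t_sg1, map_sum, map_smul]

theorem t_one' {X Y : QO D} (u : Ar G s X Y) (hu : Fib u) (h : QM.h u = 1) (γ) :
    (P.t u).f (V.e X γ) = V.e Y γ :=
  V.t_one u h (fun β => by
    rw [B.t_e0 U W V he u β.1 β.2, Un.at_one U (qpt u) h, B.t_one u hu h,
      B.e_eq U W V he Y β.1 β.2]
    simp only [one_apply, ite_smul, one_smul, zero_smul, Finset.sum_ite_eq', Finset.mem_univ,
      if_true]) γ

theorem t_u {X Y : QO D} (u : Ar G s X Y) (k) : (P.t u).f (V.e X (∅, 0, k)) =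
    ∑ l, U.at (qh u) (qpt u) l k • V.e Y (∅, 0, l) := by
  simp only [B.t_e0 U W V he u, B.t_0 u, B.e_eq U W V he Y]

theorem t_F0 {X Y : QO D} (u : Ar G s X Y) (m : Fin 4 →₀ ℕ) (k) :
    (P.t u).f (V.e X (∅, m, k)) ∈ V.F0 Y (∑ l, m l) := by
  rw [B.t_e0 U W V he]
  exact sum_mem fun j _ => Submodule.smul_mem _ _ (B.mem_F0 U W V he Y j (B.t_ord u m))

theorem t_F0' {X Y : QO D} (u : Ar G s X Y) (m : Fin 4 →₀ ℕ) (k) :
    V.e Y (∅, m, k) ∈ Submodule.span (RQ G s Y)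
      {p | ∃ (m' : Fin 4 →₀ ℕ) (k' : Fin U.n), ∑ l, m' l ≤ ∑ l, m l ∧
        p = (P.t u).f (V.e X (∅, m', k'))} := by
  rw [B.e_eq U W V he]
  refine span_into (W.ι Y ∘ₗ sg1 L U Y k) ?_ (B.t_ord' u m)
  rintro _ ⟨m', hm, rfl⟩
  rw [LinearMap.comp_apply, sg1_t, map_sum]
  refine sum_mem fun j _ => ?_
  rw [map_smul, ← W.t u, ← B.e_eq U W V he]
  exact Submodule.smul_mem _ _ (Submodule.subset_span ⟨m', j, hm, rfl⟩)

theorem bc {X Y : QO D} (u : Ar G s X Y) :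
    ∃ e' : Module.Basis (Finset (Fin 3) × (Fin 4 →₀ ℕ) × Fin U.n) (RQ G s Y) (P.K Y).M.V,
      ∀ γ, e' γ = (P.t u).f (V.e X γ) :=
  V.bc u (B.t_F0 U W V he u) (B.t_F0' U W V he u)

theorem j_t (j : ∀ X : QO D, Fin 3 → ((P.K X).M.V →ₗ[RQ G s X] (P.K X).M.V))
    (j_i : ∀ (X : QO D) a b p, j X a (P.i X b p) = (if a = b then p else 0) - P.i X b (j X a p))
    (j_e : ∀ (X : QO D) a β, j X a (V.e X (∅, β)) = 0) {X Y : QO D} (u : Ar G s X Y) (a p) :
    j Y a ((P.t u).f p) = ∑ b, adm G (qh u) a b • (P.t u).f (j X b p) :=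
  V.j_t j j_i j_e u (B.t_F0 U W V he u) a p

end Fields

end SB

end

end Vale.Agent.P286EX
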