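import Vale.Agent.P286ER2.G0

/-!
The order filtration of differential operators and of symbols.
-/

set_option autoImplicit false
set_option linter.all false

namespace Vale.Agent.P286EX.Tr

open MvPolynomial Vale.Agent.P286EI

noncomputable section

variable {κ R A R' A' : Type} [CommRing R] [Algebra ℂ R] [CommRing A] [Algebra ℂ A]
  [CommRing R'] [Algebra ℂ R'] [CommRing A'] [Algebra ℂ A']
  {δ : κ → Derivation ℂ R R} {δ' : κ → Derivation ℂ R' R'}

theorem deg_add (α : κ →₀ ℕ) (k : κ) : (α + Finsupp.single k 1).degree = α.degree + 1 := by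
  rw [map_add, Finsupp.degree_single]

theorem mon_X (α : κ →₀ ℕ) (k : κ) :
    monomial α (1 : A) * X k = monomial (α + Finsupp.single k 1) 1 := by
  rw [X, monomial_mul, mul_one]

/-- The symbols of order at most `r`. -/
def So (κ A : Type) [CommRing A] (r : ℕ) : Submodule A (MvPolynomial κ A) :=
  Submodule.span A {p | ∃ α : κ →₀ ℕ, α.degree ≤ r ∧ p = monomial α 1}

/-- The operators of order at most `r`. -/
def Do (δ : κ → Derivation ℂ R R) (r : ℕ) : Submodule R (DO δ) :=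
  Submodule.span R {q | ∃ α : κ →₀ ℕ, α.degree ≤ r ∧ q = pm δ α}

theorem So_mono {r r' : ℕ} (h : r ≤ r') : So κ A r ≤ So κ A r' :=
  Submodule.span_mono fun _ ⟨α, h1, h2⟩ => ⟨α, h1.trans h, h2⟩

theorem Do_mono {r r' : ℕ} (h : r ≤ r') : Do δ r ≤ Do δ r' :=
  Submodule.span_mono fun _ ⟨α, h1, h2⟩ => ⟨α, h1.trans h, h2⟩

theorem mon_So {α : κ →₀ ℕ} {r : ℕ} (h : α.degree ≤ r) : monomial α 1 ∈ So κ A r :=
  Submodule.subset_span ⟨α, h, rfl⟩

theorem pm_Do {α : κ →₀ ℕ} {r : ℕ} (h : α.degree ≤ r) : pm δ α ∈ Do δ r :=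
  Submodule.subset_span ⟨α, h, rfl⟩

theorem Do_ind {r : ℕ} {P : DO δ → Prop} (h0 : P 0)
    (h1 : ∀ α : κ →₀ ℕ, α.degree ≤ r → P (pm δ α)) (h2 : ∀ f x, P x → P (DO.of δ f * x))
    (h3 : ∀ x y, P x → P y → P (x + y)) {x : DO δ} (h : x ∈ Do δ r) : P x := by
  induction h using Submodule.span_induction with
  | mem y hy => obtain ⟨α, h, rfl⟩ := hy; exact h1 α h
  | zero => exact h0
  | add y z _ _ hy hz => exact h3 _ _ hy hz
  | smul a y _ hy => exact h2 _ _ hy

theorem So_into {M : Type} [AddCommGroup M] [Module A M] (f : MvPolynomial κ A →ₗ[A] M)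
    {N : Submodule A M} {r : ℕ} (h : ∀ α : κ →₀ ℕ, α.degree ≤ r → f (monomial α 1) ∈ N)
    {p : MvPolynomial κ A} (hp : p ∈ So κ A r) : f p ∈ N :=
  (Submodule.span_le (p := N.comap f)).2 (by rintro _ ⟨α, h1, rfl⟩; exact h α h1) hp

theorem of_mul_Do {r : ℕ} (f : R) {x : DO δ} (h : x ∈ Do δ r) : DO.of δ f * x ∈ Do δ r :=
  Submodule.smul_mem _ f h

theorem one_Do (r : ℕ) : 1 ∈ Do δ r := pm_zero (δ := δ) ▸ pm_Do (by simp)

theorem of_Do (f : R) (r : ℕ) : DO.of δ f ∈ Do δ r := mul_one (DO.of δ f) ▸ of_mul_Do f (one_Do r)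

theorem Do_mul_D {r : ℕ} {x : DO δ} (h : x ∈ Do δ r) (k : κ) : x * DO.D δ k ∈ Do δ (r + 1) :=
  Do_ind (P := fun x => x * DO.D δ k ∈ Do δ (r + 1)) (by rw [zero_mul]; exact zero_mem _)
    (fun α hα => by rw [← pm_add]; exact pm_Do (by rw [deg_add]; omega))
    (fun f x hx => by rw [mul_assoc]; exact of_mul_Do f hx)
    (fun x y hx hy => by rw [add_mul]; exact add_mem hx hy) h

theorem D_Do (k : κ) : DO.D δ k ∈ Do δ 1 := one_mul (DO.D δ k) ▸ Do_mul_D (one_Do 0) k

theorem pm_mul_of (α : κ →₀ ℕ) (f : R) : pm δ α * DO.of δ f ∈ Do δ α.degree := by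
  induction α using fs_ind generalizing f with
  | h0 => rw [pm_zero, one_mul]; exact of_Do f _
  | h1 α k ih =>
    rw [pm_add, mul_assoc, DO.D_of, mul_add, ← mul_assoc, deg_add]
    exact add_mem (Do_mul_D (ih f) k) (Do_mono (Nat.le_succ _) (ih _))

theorem Do_mul_of {r : ℕ} {x : DO δ} (h : x ∈ Do δ r) (g : R) : x * DO.of δ g ∈ Do δ r :=
  Do_ind (P := fun x => x * DO.of δ g ∈ Do δ r) (by rw [zero_mul]; exact zero_mem _)
    (fun α hα => Do_mono hα (pm_mul_of α g)) (fun f x hx => by rw [mul_assoc]; exact of_mul_Do f hx)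
    (fun x y hx hy => by rw [add_mul]; exact add_mem hx hy) h

theorem Do_mul_pm {r : ℕ} {x : DO δ} (h : x ∈ Do δ r) (α : κ →₀ ℕ) :
    x * pm δ α ∈ Do δ (r + α.degree) := by
  induction α using fs_ind with
  | h0 => rw [pm_zero, mul_one, map_zero]; exact h
  | h1 α k ih => rw [pm_add, ← mul_assoc, deg_add]; exact Do_mul_D ih k

theorem Do_mul {r t : ℕ} {x y : DO δ} (h : x ∈ Do δ r) (h' : y ∈ Do δ t) :
    x * y ∈ Do δ (r + t) :=
  Do_ind (P := fun y => ∀ x ∈ Do δ r, x * y ∈ Do δ (r + t))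
    (fun x _ => by rw [mul_zero]; exact zero_mem _)
    (fun α hα x hx => Do_mono (by omega) (Do_mul_pm hx α))
    (fun f y hy x hx => by rw [← mul_assoc]; exact hy _ (Do_mul_of hx f))
    (fun y z hy hz x hx => by rw [mul_add]; exact add_mem (hy x hx) (hz x hx)) h' x h

theorem csmul_Do {r : ℕ} (c : ℂ) {x : DO δ} (h : x ∈ Do δ r) : c • x ∈ Do δ r :=
  Submodule.smul_of_tower_mem _ c h

variable (h : DO.Cm δ) (ψ : R →ₐ[ℂ] A)

theorem ev_Do {r : ℕ} {x : DO δ} (hx : x ∈ Do δ r) : ev h ψ x ∈ So κ A r :=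
  Do_ind (P := fun x => ev h ψ x ∈ So κ A r) (by rw [map_zero]; exact zero_mem _)
    (fun α hα => by rw [ev_pm]; exact mon_So hα)
    (fun f x hx => by rw [ev_of_mul]; exact Submodule.smul_mem _ _ hx)
    (fun x y hx hy => by rw [map_add]; exact add_mem hx hy) hx

theorem ra_So {r t : ℕ} {q : DO δ} (hq : q ∈ Do δ t) {p : MvPolynomial κ A} (hp : p ∈ So κ A r) :
    ra h ψ q p ∈ So κ A (r + t) :=
  So_into (ra h ψ q) (fun α hα => by rw [ra_mon]; exact ev_Do h ψ (Do_mul (pm_Do hα) hq)) hp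

variable (h' : DO.Cm δ') {ψ} {ψ' : R' →ₐ[ℂ] A'} {φ : A →ₐ[ℂ] A'} {m : DO δ →ₐ[ℂ] DO δ'}

omit h in
theorem map_pm_Do (h1 : ∀ k, m (DO.D δ k) ∈ Do δ' 1) (α : κ →₀ ℕ) : m (pm δ α) ∈ Do δ' α.degree := by
  induction α using fs_ind with
  | h0 => rw [pm_zero, map_one]; exact one_Do _
  | h1 α k ih => rw [pm_add, map_mul, deg_add]; exact Do_mul ih (h1 k)

omit h in
theorem tt_So (h1 : ∀ k, m (DO.D δ k) ∈ Do δ' 1) (α : κ →₀ ℕ) :
    tt h' ψ' φ m (monomial α 1) ∈ So κ A' α.degree := by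
  rw [tt_mon, map_one, one_smul]
  exact ev_Do h' ψ' (map_pm_Do h1 α)

include h in
theorem tt_So' (H : Cp ψ ψ' φ m)
    (h1 : ∀ k, DO.D δ' k ∈ Submodule.span R' (insert 1 (Set.range fun l => m (DO.D δ l)))) (r : ℕ) :
    So κ A' r ≤ Submodule.span A'
      {p | ∃ α : κ →₀ ℕ, α.degree ≤ r ∧ p = tt h' ψ' φ m (monomial α 1)} := by
  have e0 : ∀ r, (monomial 0 1 : MvPolynomial κ A') ∈ Submodule.span A'
      {p | ∃ α : κ →₀ ℕ, α.degree ≤ r ∧ p = tt h' ψ' φ m (monomial α 1)} := fun r =>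
    Submodule.subset_span ⟨0, by simp, (tt_one h').symm⟩
  induction r with
  | zero =>
    refine Submodule.span_le.2 ?_
    rintro _ ⟨α, hα, rfl⟩
    rw [(Finsupp.degree_eq_zero_iff α).1 (Nat.le_zero.1 hα)]
    exact e0 0
  | succ r ih =>
    have key : ∀ q ∈ Submodule.span R' (insert 1 (Set.range fun l => m (DO.D δ l))),
        ∀ p ∈ So κ A' r, ra h' ψ' q p ∈ Submodule.span A'
          {p | ∃ α : κ →₀ ℕ, α.degree ≤ r + 1 ∧ p = tt h' ψ' φ m (monomial α 1)} := fun q hq => by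
      induction hq using Submodule.span_induction with
      | mem y hy =>
        intro p hp
        rcases hy with rfl | ⟨l, rfl⟩
        · rw [ra_one]
          refine Submodule.span_mono ?_ (ih hp)
          rintro _ ⟨α, h1, h2⟩
          exact ⟨α, h1.trans (Nat.le_succ _), h2⟩
        · refine Submodule.mem_comap.1 (Submodule.span_le.2 ?_ (ih hp))
          rintro _ ⟨α, h1, rfl⟩
          refine Submodule.mem_comap.2 (Submodule.subset_span ⟨α + Finsupp.single l 1, ?_, ?_⟩)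
          · rw [deg_add]; omega
          · rw [← tt_ra h h' H, ra_D, mon_X]
      | zero => intro p _; rw [map_zero]; exact zero_mem _
      | add y z _ _ hy hz => intro p hp; rw [map_add]; exact add_mem (hy p hp) (hz p hp)
      | smul a y _ hy =>
        intro p hp
        rw [DO.smul_def, ra_mul]
        exact hy _ (ra_So h' ψ' (of_Do a 0) hp)
    refine Submodule.span_le.2 ?_
    rintro _ ⟨α, hα, rfl⟩
    induction α using fs_ind with
    | h0 => exact e0 _
    | h1 α k _ =>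
      rw [← mon_X, ← ra_D h' ψ']
      exact key _ (h1 k) _ (mon_So (by rw [deg_add] at hα; omega))

section W

variable {ι B B' : Type} [CommRing B] [Algebra ℂ B] [CommRing B'] [Algebra ℂ B'] [DecidableEq ι]
  [Fintype ι] {pd : Derivation ℂ B B} {pd' : Derivation ℂ B' B'}

omit [Fintype ι] in
theorem yd_Do (a b : ι) : DW.y pd a * DW.d pd b ∈ Do (wd ι pd) 1 := of_mul_Do _ (D_Do _)

theorem Eu_Do : DW.Eu ι pd ∈ Do (wd ι pd) 1 := sum_mem fun a _ => yd_Do a a

theorem map_D_Do (t : DW.Tr ι pd pd') (k : Option ι) : DW.map t (DO.D _ k) ∈ Do (wd ι pd') 1 := by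
  rcases k with _ | a
  · exact (DW.map_du t).symm ▸ of_mul_Do _
      (add_mem (sub_mem (D_Do _) (of_mul_Do _ Eu_Do)) (of_Do _ 1))
  · exact (DW.map_d t a).symm ▸ of_mul_Do _ (sum_mem fun b _ => of_mul_Do _ (D_Do _))

theorem D_span (t : DW.Tr ι pd pd') (k : Option ι) : DO.D (wd ι pd') k ∈
    Submodule.span (MvPolynomial ι B') (insert 1 (Set.range fun l => DW.map t (DO.D _ l))) := by
  set N := Submodule.span (MvPolynomial ι B') (insert 1 (Set.range fun l => DW.map t (DO.D _ l)))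
  have m1 : ∀ f x, x ∈ N → DO.of (wd ι pd') f * x ∈ N := fun f x hx => N.smul_mem f hx
  have m2 : ∀ l, DW.cf ι pd' t.c * DW.map t (DO.D _ l) ∈ N := fun l =>
    m1 _ _ (Submodule.subset_span (.inr ⟨l, rfl⟩))
  have e : ∀ x, DW.cf ι pd' t.c * (DW.cf ι pd' (t.c⁻¹ : B'ˣ) * x) = x := fun x => by
    rw [← mul_assoc, ← map_mul, Units.mul_inv, map_one, one_mul]
  have hd : ∀ b, DW.d pd' b ∈ N := fun b => by
    have e1 : DW.d pd' b = ∑ a, DW.cf ι pd' (t.g a b) * DW.lc pd' (t.g a) (DW.d pd') := by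
      simp only [DW.lc, Finset.mul_sum, ← mul_assoc, ← map_mul]
      rw [Finset.sum_comm]
      simp only [← Finset.sum_mul, ← map_sum]
      have e2 : ∀ q, ∑ a, t.g a b * t.g a q = if b = q then 1 else 0 := fun q =>
        (congrFun (congrFun (mul_eq_one_comm.1 t.og : t.g.transpose * t.g = 1) b) q :)
      simp only [e2, apply_ite (DW.cf ι pd'), map_one, map_zero, ite_mul, one_mul, zero_mul,
        Finset.sum_ite_eq, Finset.mem_univ, if_true]
    rw [e1]
    refine sum_mem fun a _ => m1 _ _ ?_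
    have := m2 (some a)
    rwa [show DW.map t (DO.D _ (some a)) = _ from DW.map_d t a, e] at this
  rcases k with _ | a
  · have := m2 none
    rw [show DW.map t (DO.D _ none) = _ from DW.map_du t, e, DW.tu] at this
    have h2 := add_mem (sub_mem this (mul_one (DW.cf ι pd' t.l) ▸
      m1 _ _ (Submodule.subset_span (.inl rfl))))
      (m1 (C (DW.lg pd' t.c)) _ (sum_mem (t := Finset.univ) fun a _ => m1 (X a) _ (hd a)))
    rwa [add_sub_cancel_right, DW.of_C, show ∑ a, DO.of (wd ι pd') (X a) * DW.d pd' a =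
      DW.Eu ι pd' from rfl, sub_add_cancel] at h2
  · exact hd a

end W

end

end Vale.Agent.P286EX.Tr
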