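import Vale.Agent.P286E8.Rb
import Vale.Agent.P286E73.Wi
import Vale.Agent.P286E75.Iv
import Vale.Agent.P286EA2.End2

/-!
# The generator
-/

set_option linter.all false

namespace Vale.Agent.P286E8

open CategoryTheory Vale.Agent.P286 Vale.Agent.P286.St Vale.Agent.P286E Vale.Agent.P286EX
  Vale.Agent.P286EI Vale.Agent.P286EL Vale.Agent.P286E48 Vale.Agent.P286E73 Vale.Agent.P286EA2

noncomputable section

variable {G : Grp} {K : GK G} {U : Rep K} {W : WA} (h : WI K.κ U.dr W) {I : Type} [SmallCategory I]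
  {D : CD I} (xd : XD D) (s : ℂ)

/-- The chart algebras as algebras of invariant operators. -/
def ia : Tr.IA xd s U where
  A := Ch xd.vfd s W
  T := chT xd.vfd s W
  cf := fz xd.vfd W
  cf_gr := fz_gr xd.vfd W
  cf_d := d_fz xd.vfd W
  cf_τ := ta_fz xd.vfd s W
  cf_F := chF_fz xd.vfd W
  u_eq := chT_u xd.vfd s W
  io := h.io xd.vfd
  io_d := h.io_d xd.vfd
  io_gr := h.io_gr xd.vfd
  io_inv := h.io_inv xd.vfd
  io_τ α := h.io_ta xd.vfd s α (Tr.tα xd s α) rfl rfl rfl rfl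
  io_cf := h.io_cf xd.vfd
  io_F := h.io_F xd.vfd

/-- The comparison with the invariants. -/
def iv (i : I) : P286E75.IA (ia h xd s).ru i where
  m := Tr.mW xd U i
  hm _ := rfl
  io := (h.io xd.vfd i).toLinearMap
  io_mul := map_mul (h.io xd.vfd i)
  io_inj := h.io_inj xd.vfd i
  io_inv := h.io_inv xd.vfd i
  io_sur := h.io_sur xd.vfd i
  io_F := h.io_F xd.vfd i
  ρ := Tr.rv xd s U (Zo xd i)
  ρ_eq := Tr.rv_apply xd s U (Zo xd i)
  ra _ _ := rfl

/-- **The generator.** -/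
def pdW : PD K xd s U := P286E75.pdA (ia h xd s).ru (iv h xd s)

theorem pdW_dc : (pdW h xd s).dc = dcOf (twB s W xd) := rfl

include h in
theorem genW (hG : GEN) (hU : U.Low) : GENW G ((1 : ℤ) : ℂ) W :=
  genW_of hG K U hU _ W fun _ _ _ xd s =>
    ⟨pdW h xd s, by rw [Int.cast_one, one_mul]; exact pdW_dc h xd s⟩

theorem genU (hG : GEN) (U : Rep K) (hU : U.Low) : GENW G ((1 : ℤ) : ℂ) (AU U) :=
  genW (wiU U) hG hU

end

end Vale.Agent.P286E8
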