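import Vale.Agent.P286E8.Fin
import Vale.Agent.P286EX7.Br1
import Vale.Agent.P286EX5.Gt
import Vale.Agent.P286E50F.Rv

/-!
# The right action of the invariant operators on the generator
-/

set_option linter.all false

namespace Vale.Agent.P286EX.Tr

open CategoryTheory Matrix Vale.Agent.P286 Vale.Agent.P286.St Vale.Agent.P286E Vale.Agent.P286EI
  Vale.Agent.P286EL
open Vale.Agent.P286EK (DGA DD TD)

noncomputable section

variable {I : Type} [SmallCategory I] {D : CD I} {G : Grp} (xd : XD D) {K : GK G} (s : ℂ)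
  (U : Rep K)

/-- The matrices of operators. -/
abbrev MW (i : I) : Type := Matrix (Fin U.n) (Fin U.n) (DV xd i)

/-- The rows of symbols. -/
abbrev NU (X : QO D) : Type := (SB.LU (sl xd K s) U).M X

/-- Rows times matrices. -/
def rv (X : QO D) : MW xd U X.i →ₗ[ℂ] NU xd s U X →ₗ[RQ G s X] NU xd s U X where
  toFun z := (LinearMap.pi fun l => ∑ k, ra0 xd G s X (z k l) ∘ₗ LinearMap.proj k :
    (Fin U.n → TX G s X) →ₗ[RQ G s X] (Fin U.n → TX G s X))
  map_add' y z := LinearMap.ext fun p => funext fun l => by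
    change (∑ k, _ : (Fin U.n → TX G s X) →ₗ[RQ G s X] TX G s X) p =
      (∑ k, _ : (Fin U.n → TX G s X) →ₗ[RQ G s X] TX G s X) p +
      (∑ k, _ : (Fin U.n → TX G s X) →ₗ[RQ G s X] TX G s X) p
    simp only [LinearMap.sum_apply, LinearMap.comp_apply, Matrix.add_apply, map_add,
      LinearMap.add_apply, Finset.sum_add_distrib]
  map_smul' c z := LinearMap.ext fun p => funext fun l => by
    change (∑ k, _ : (Fin U.n → TX G s X) →ₗ[RQ G s X] TX G s X) p =
      c • (∑ k, _ : (Fin U.n → TX G s X) →ₗ[RQ G s X] TX G s X) p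
    simp only [LinearMap.sum_apply, LinearMap.comp_apply, Matrix.smul_apply, map_smul,
      LinearMap.smul_apply, Finset.smul_sum]

theorem rv_apply (X : QO D) (z : MW xd U X.i) (p : Fin U.n → TX G s X) (l : Fin U.n) :
    rv xd s U X z p l = ∑ k, ra0 xd G s X (z k l) (p k) :=
  LinearMap.sum_apply Finset.univ (fun k => ra0 xd G s X (z k l) ∘ₗ
    (LinearMap.proj k : (Fin U.n → TX G s X) →ₗ[RQ G s X] TX G s X)) p

theorem rv_sc (X : QO D) (q : DV xd X.i) (p : Fin U.n → TX G s X) (l : Fin U.n) :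
    rv xd s U X (Matrix.scalar _ q) p l = ra0 xd G s X q (p l) := by
  rw [rv_apply, Finset.sum_eq_single l, scalar_apply, diagonal_apply_eq]
  · intro k _ h
    rw [scalar_apply, diagonal_apply_ne _ h, map_zero, LinearMap.zero_apply]
  · simp

theorem rv_one (X : QO D) (p : NU xd s U X) : rv xd s U X 1 p = p := funext fun l =>
  (congrArg (fun z => rv xd s U X z p l) (map_one (Matrix.scalar (Fin U.n))).symm).trans
    ((rv_sc xd s U X 1 p l).trans (ra0_one xd X _))

theorem rv_mul (X : QO D) (a b : MW xd U X.i) (p : NU xd s U X) :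
    rv xd s U X (a * b) p = rv xd s U X b (rv xd s U X a p) := funext fun l => by
  have e : ∀ p : Fin U.n → TX G s X, ∑ k, ra0 xd G s X ((a * b) k l) (p k) =
      ∑ k, ra0 xd G s X (b k l) (∑ j, ra0 xd G s X (a j k) (p j)) := fun p => by
    simp only [Matrix.mul_apply, map_sum, LinearMap.sum_apply, ra0_mul]
    exact Finset.sum_comm
  exact (rv_apply xd s U X _ p l).trans ((e p).trans ((Finset.sum_congr rfl fun k _ =>
    congrArg _ (rv_apply xd s U X a p k).symm).trans (rv_apply xd s U X _ _ l).symm))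

theorem rv_act (X : QO D) (v) (z : MW xd U X.i) (p : NU xd s U X) :
    fcL ((SB.LU (sl xd K s) U).C X) v (rv xd s U X z p) =
      rv xd s U X z (fcL ((SB.LU (sl xd K s) U).C X) v p) := funext fun l => by
  refine (congrArg (act xd G s X v) (rv_apply xd s U X z p l)).trans
    (Eq.trans ?_ (rv_apply xd s U X _ _ l).symm)
  rw [map_sum]
  exact Finset.sum_congr rfl fun k _ => act_ra0 xd X v _ _

/-- The operators of the Lie algebra. -/
def mW (i : I) (a : Fin 3) : MW xd U i := -MU (muW (xd.pd i) K.κ) U.dr a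

theorem l_rv (X : QO D) : (SB.LU (sl xd K s) U).l X = fun a => rv xd s U X (mW xd U X.i a) :=
  funext fun a => LinearMap.ext fun p => funext fun l => by
    have e : mW xd U X.i a = Matrix.scalar _ (-mu K.κ (xd.pd X.i) a) +
        ((U.dr a)ᵀ).map (algebraMap ℂ _) := by
      rw [mW, MU, mu_muW, map_neg, neg_add]
      exact congrArg _ (Matrix.ext fun k l => by simp)
    rw [e, map_add]
    refine ((sl xd K s).rep_l (U.rs D s) X a p l).trans (congrArg₂ (· + ·) ?_ ?_)
    · refine Eq.trans ?_ (rv_sc xd s U X _ p l).symm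
      rw [map_neg]; rfl
    · refine Eq.trans (Finset.sum_congr rfl fun k _ => ?_) (rv_apply xd s U X _ p l).symm
      rw [map_apply, Algebra.algebraMap_eq_smul_one, map_smul]
      exact congrArg (U.dr a l k • ·) (ra0_one xd X (p k)).symm

/-- The transition maps of the matrices. -/
abbrev gW {i j : I} (α : i ⟶ j) : MW xd U i →ₗ[ℂ] MW xd U j :=
  (DW.map (tα xd s α)).mapMatrix.toLinearMap

theorem t_of {X Y : QO D} (u : Ar G s X Y) (h : QM.h u = 1) (p : NU xd s U X) (l : Fin U.n) :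
    (SB.LU (sl xd K s) U).t u p l = t xd K u (p l) := by
  refine ((sl xd K s).rep_t (U.rs D s) u p l).trans ?_
  rw [Rep.rs_r, Un.at_one U (qpt u) h]
  simp only [one_apply, ite_smul, one_smul, zero_smul, Finset.sum_ite_eq, Finset.mem_univ, if_true]
  rfl

theorem t_rv {X Y : QO D} (u : Ar G s X Y) (h : QM.h u = 1) (z : MW xd U X.i) (p : NU xd s U X) :
    (SB.LU (sl xd K s) U).t u (rv xd s U X z p) =
      rv xd s U Y (gW xd s U (QM.α u) z) ((SB.LU (sl xd K s) U).t u p) := funext fun l => by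
  refine (t_of xd s U u h _ l).trans ((congrArg (t xd K u) (rv_apply xd s U X z p l)).trans
    (Eq.trans ?_ (rv_apply xd s U Y _ _ l).symm))
  rw [map_sum]
  exact Finset.sum_congr rfl fun k _ => (t_ra0_of xd K u h _ _).trans
    (congrArg _ (t_of xd s U u h p k).symm)

theorem rv_sg1 (X : QO D) (q : DV xd X.i) (k) (p : TX G s X) :
    rv xd s U X (Matrix.scalar _ q) (SB.sg1 (sl xd K s) U X k p) =
      SB.sg1 (sl xd K s) U X k (ra0 xd G s X q p) := funext fun l => by
  refine (rv_sc xd s U X q _ l).trans ((congrArg (ra0 xd G s X q)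
    (SB.sg1_apply (L := sl xd K s) U X k l p)).trans
      (Eq.trans ?_ (SB.sg1_apply (L := sl xd K s) U X k l _).symm))
  exact (apply_ite (ra0 xd G s X q) _ _ _).trans (congrArg _ (map_zero _))

theorem rv_unit (X : QO D) (z : MW xd U X.i) (k l) :
    rv xd s U X z (SB.sg1 (sl xd K s) U X k (bs G s X 0)) l = ev0 xd G s X (z k l) := by
  refine (rv_apply xd s U X z _ l).trans ((Finset.sum_eq_single k (fun j _ h => ?_) (by simp)).trans ?_)
  · exact (congrArg _ ((SB.sg1_apply U X k j _).trans (if_neg h))).trans (map_zero _)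
  · exact (congrArg _ ((SB.sg1_apply U X k k _).trans ((if_pos rfl).trans (bs_zero X)))).trans
      (ra0_unit xd X _)

/-- The right action of the matrices with ghosts. -/
def rb (X : QO D) : L3 (MW xd U X.i) →ₗ[ℂ]
    ((PU xd s U).K X).M.V →ₗ[RQ G s X] ((PU xd s U).K X).M.V := L3.ra (rv xd s U X)

theorem PU_d (X : QO D) (p : L3 (NU xd s U X)) : ((PU xd s U).K X).M.d p =
    dL K.κ (fun a => rv xd s U X (mW xd U X.i a)) p := by
  rw [← l_rv]
  exact (cU xd s U X).d_eq (dL_inl _ _) (dL_wg _ _) (map_add _) p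

theorem PU_lie (X : QO D) (a) (p : L3 (NU xd s U X)) :
    lieOp ((PU xd s U).K X) ((PU xd s U).i X a) p =
      lieL K.κ (fun a => rv xd s U X (mW xd U X.i a)) a p := by
  rw [← l_rv]
  exact ((SB.LU (sl xd K s) U).hg'_lie _ _ X a p).trans ((cU xd s U X).L_eq a p)

theorem rb_act (X : QO D) (z v p) :
    rb xd s U X z (((PU xd s U).K X).C.act v p) = ((PU xd s U).K X).C.act v (rb xd s U X z p) :=
  (L3.map_ra (rv xd s U X) (rv xd s U X) _ LinearMap.id (fun m p => rv_act xd s U X v m p) z p).symm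

theorem rb_lie (X : QO D) {z} (hz : Inv K.κ (mW xd U X.i) z) (a) (p : L3 (NU xd s U X)) :
    rb xd s U X z (lieOp ((PU xd s U).K X) ((PU xd s U).i X a) p) =
      lieOp ((PU xd s U).K X) ((PU xd s U).i X a) (rb xd s U X z p) :=
  (congrArg (rb xd s U X z) (PU_lie xd s U X a p)).trans
    ((lieL_ra (rv xd s U X) (rv_mul xd s U X) hz a p).symm.trans
      (PU_lie xd s U X a (rb xd s U X z p)).symm)

theorem rb_d (X : QO D) {z} (hz : Inv K.κ (mW xd U X.i) z) (p) :
    ((PU xd s U).K X).M.d (rb xd s U X z p) = rb xd s U X z (((PU xd s U).K X).M.d p) +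
      rb xd s U X (dL K.κ (fun a => L3.rm _ (mW xd U X.i a)) z)
        ((SB.LU (sl xd K s) U).sgq (cU xd s U) X p) :=
  (PU_d xd s U X _).trans ((dL_ra _ (rv_mul xd s U X) hz p).trans
    (congrArg (fun y => rb xd s U X z y + _) (PU_d xd s U X p).symm))

theorem rb_t1 {X Y : QO D} (u : Ar G s X Y) (h : QM.h u = 1) (z p) :
    ((PU xd s U).t u).f (rb xd s U X z p) =
      rb xd s U Y (L3.map (gW xd s U (QM.α u)) z) (((PU xd s U).t u).f p) := by
  have e := (SB.LU (sl xd K s) U).hg'_t_one (K.gs_ok D s) (cU xd s U) u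
    ((congrArg (adm G) (show qh u = 1 from h)).trans K.adm_one)
  exact (e _).trans ((L3.map_ra _ _ _ _ (t_rv xd s U u h) z p).trans (congrArg _ (e p).symm))

/-- The vacuum vector in the component `k`. -/
def JU (X : QO D) (k : Fin U.n) : TX G s X →ₗ[RQ G s X] ((PU xd s U).K X).M.V :=
  L3.inl (RQ G s X) (NU xd s U X) ∘ₗ SB.sg1 (sl xd K s) U X k

theorem rb_JU (X : QO D) (q : DV xd X.i) (k) (p : TX G s X) :
    rb xd s U X (L3.inl ℂ _ (Matrix.scalar _ q)) (JU xd s U X k p) =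
      JU xd s U X k (ra0 xd G s X q p) :=
  (L3.ra_inl _ _ _).trans ((L3.map_inl _ _).trans (congrArg _ (rv_sg1 xd s U X q k p)))

/-- A diagram of algebras of invariant operators. -/
structure IA : Type 1 where
  A : DD I
  T : TD A
  cf : ∀ i, D.C i →ₐ[ℂ] (A.A i).R
  cf_gr : ∀ i z, cf i z ∈ (A.A i).gr 0
  cf_d : ∀ i z, (A.A i).d (cf i z) = 0
  cf_τ : ∀ {i j : I} (α : i ⟶ j) z, (A.τ α).f (cf i z) = cf j (D.κ α z)
  cf_F : ∀ i z, (T.F i).x * cf i z = cf i z * (T.F i).x
  u_eq : ∀ {i j : I} (α : i ⟶ j), (T.u α).1 = cf j (D.c α ^ 2)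
  io : ∀ i, (A.A i).R →ₐ[ℂ] L3 (MW xd U i)
  io_d : ∀ i x, io i ((A.A i).d x) = dL K.κ (fun a => L3.rm _ (mW xd U i a)) (io i x)
  io_gr : ∀ i (m : ℤ) x, x ∈ (A.A i).gr m → io i x ∈ L3.gr ℂ _ m
  io_inv : ∀ i x, Inv K.κ (mW xd U i) (io i x)
  io_τ : ∀ {i j : I} (α : i ⟶ j) x, io j ((A.τ α).f x) = L3.map (gW xd s U α) (io i x)
  io_cf : ∀ i z, io i (cf i z) = L3.inl ℂ _ (Matrix.scalar _ (DW.cf _ _ z))
  io_F : ∀ i, io i (T.F i).x = L3.inl ℂ _ (Matrix.scalar _ (DO.of _ (FF D i)))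

variable {xd s U} (A : IA xd s U)

/-- The right action. -/
def IA.ra (X : QO D) : (A.A.A X.i).R →ₗ[ℂ]
    ((PU xd s U).K X).M.V →ₗ[RQ G s X] ((PU xd s U).K X).M.V :=
  rb xd s U X ∘ₗ (A.io X.i).toLinearMap

theorem IA.ra_apply (X : QO D) (a) : A.ra X a = rb xd s U X (A.io X.i a) := rfl

theorem IA.ra_t1 {X Y : QO D} (u : Ar G s X Y) (h : QM.h u = 1) (a p) :
    ((PU xd s U).t u).f (A.ra X a p) = A.ra Y ((A.A.τ (QM.α u)).f a) (((PU xd s U).t u).f p) := by
  rw [A.ra_apply Y, A.io_τ]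
  exact rb_t1 xd s U u h _ p

theorem IA.ra_t {X Y : QO D} (u : Ar G s X Y) (a p) :
    ((PU xd s U).t u).f (A.ra X a p) = A.ra Y ((A.A.τ (QM.α u)).f a) (((PU xd s U).t u).f p) := by
  obtain ⟨e', he⟩ := PU_bc xd s U (Gt.nu K s X)
  exact Gt.t_comm _ u _ e' he (A.ra X a) (A.ra (Gt.gob K X) a) _ (rb_act xd s U _ _)
    (rb_lie xd s U _ (A.io_inv _ a))
    (fun q => (A.ra_t1 (Gt.fac K (idA G s X)) rfl a q).trans
      (congrArg (fun b => A.ra X b _) (A.A.τ_id X.i a)))
    (A.ra_t1 (Gt.fac K u) rfl a) p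

theorem IA.ra_JU (X : QO D) {a q} (h : A.io X.i a = L3.inl ℂ _ (Matrix.scalar _ q)) (k p) :
    A.ra X a (JU xd s U X k p) = JU xd s U X k (ra0 xd G s X q p) := by
  rw [A.ra_apply, h, rb_JU]

theorem IA.ra_d (X : QO D) (a p) : ((PU xd s U).K X).M.d (A.ra X a p) =
    A.ra X a (((PU xd s U).K X).M.d p) +
      A.ra X ((A.A.A X.i).d a) ((SB.LU (sl xd K s) U).sgq (cU xd s U) X p) := by
  rw [A.ra_apply X ((A.A.A X.i).d a), A.io_d]
  exact rb_d xd s U X (A.io_inv _ a) p

/-- **The right action on the generator.** -/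
def IA.ru : RU xd s U where
  A := A.A
  T := A.T
  cf := A.cf
  cf_gr := A.cf_gr
  cf_d := A.cf_d
  cf_τ := A.cf_τ
  cf_F := A.cf_F
  u_eq := A.u_eq
  ra := A.ra
  ra_one X p := (congrArg (fun z => rb xd s U X z p) (map_one (A.io X.i))).trans
    (L3.ra_one _ (rv_one xd s U X) p)
  ra_mul X a b p := (congrArg (fun z => rb xd s U X z p) (map_mul (A.io X.i) a b)).trans
    (L3.ra_mul _ (rv_mul xd s U X) _ _ p)
  ra_d := A.ra_d
  ra_gr X m n p a hp ha := L3.ra_gr (R := RQ G s X) (rv xd s U X) hp (A.io_gr _ n a ha)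
  ra_act X a := rb_act xd s U X _
  ra_i X a b p := L3.ra_wg (rv xd s U X) _ b p
  ra_t := A.ra_t
  F_e X m k := (P286E50F.rv xd G s X).F_e (JU xd s U X k) _ (A.ra_JU X (A.io_F _) k) _
    (fun m => (sb xd K s).V_e U _ X m k) m
  cf_ord X z m k := (P286E50F.rv xd G s X).cf_ord z (JU xd s U X k) _ (A.ra_JU X (A.io_cf _ z) k)
    (fun m k => ((sb xd K s).V U (cU xd s U)).e X (∅, m, k)) k
    (fun m => (sb xd K s).V_e U _ X m k) m
  ra_cf X z k := (P286E50F.rv xd G s X).ra_cf z (JU xd s U X k) _ (A.ra_JU X (A.io_cf _ z) k)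
    ((sb xd K s).V_e U _ X 0 k)

theorem IA.ra_v (X : QO D) (x k) :
    A.ra X x (L3.inl (RQ G s X) _ (SB.sg1 (sl xd K s) U X k (bs G s X 0))) =
      L3.map (show MW xd U X.i →ₗ[ℂ] NU xd s U X from
        LinearMap.pi fun l => (ev0 xd G s X).comp (Matrix.entryLinearMap ℂ _ k l)) (A.io X.i x) :=
  (L3.ra_vac _ _ _).trans (L3.ext (funext (rv_unit xd s U X _ k))
    (funext fun _ => funext (rv_unit xd s U X _ k)) (funext fun _ => funext (rv_unit xd s U X _ k))
    (funext (rv_unit xd s U X _ k)))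

end

end Vale.Agent.P286EX.Tr
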