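import Vale.Agent.P286EX.Spec

/-!
# Bases of gauge families: from the vacuum to all ghost numbers
-/

set_option linter.all false

namespace Vale.Agent.P286EX

open CategoryTheory Matrix TensorProduct Vale.Agent.P286 Vale.Agent.P286.St Vale.Agent.P286.H847
  Vale.Agent.P286E Vale.Agent.P286EG Vale.Agent.P286.H710

noncomputable section

section Gen

variable {B M ι : Type} [CommRing B] [AddCommGroup M] [Module B M]

/-- A family which spans every step of a filtration by finite parts of a basis is a basis. -/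
theorem basis_of_fil (e : Module.Basis ι B M) (f : ι → M) (c : ℕ → Set ι)
    (hf : ∀ r, (c r).Finite) (hc : ∀ r r', r ≤ r' → c r ⊆ c r') (hu : ∀ γ, ∃ r, γ ∈ c r)
    (h1 : ∀ r, ∀ γ ∈ c r, f γ ∈ Submodule.span B (e '' c r))
    (h2 : ∀ r, ∀ γ ∈ c r, e γ ∈ Submodule.span B (f '' c r)) :
    ∃ e' : Module.Basis ι B M, ∀ γ, e' γ = f γ := by
  let Φ : M →ₗ[B] M := e.constr B f
  have hΦ : ∀ γ, Φ (e γ) = f γ := e.constr_basis B f
  have hm : ∀ r, (Submodule.span B (e '' c r)).map Φ = Submodule.span B (e '' c r) := fun r => by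
    rw [Submodule.map_span, ← Set.image_comp, show Φ ∘ e = f from funext hΦ]
    refine le_antisymm (Submodule.span_le.2 ?_) (Submodule.span_le.2 ?_)
    · rintro _ ⟨γ, h, rfl⟩; exact h1 r γ h
    · rintro _ ⟨γ, h, rfl⟩; exact h2 r γ h
  have hx : ∀ x : M, ∃ r, x ∈ Submodule.span B (e '' c r) := fun x => by
    have mono : ∀ r r', r ≤ r' → Submodule.span B (e '' c r) ≤ Submodule.span B (e '' c r') :=
      fun r r' h => Submodule.span_mono (Set.image_mono (hc r r' h))
    induction e.mem_span x using Submodule.span_induction with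
    | mem y hy =>
      obtain ⟨γ, rfl⟩ := hy
      obtain ⟨r, hr⟩ := hu γ
      exact ⟨r, Submodule.subset_span ⟨γ, hr, rfl⟩⟩
    | zero => exact ⟨0, zero_mem _⟩
    | add y z _ _ hy hz =>
      obtain ⟨r, hr⟩ := hy
      obtain ⟨r', hr'⟩ := hz
      exact ⟨max r r', add_mem (mono _ _ (le_max_left _ _) hr) (mono _ _ (le_max_right _ _) hr')⟩
    | smul a y _ hy => exact hy.imp fun r hr => Submodule.smul_mem _ a hr
  have hs : Function.Surjective Φ := fun x => by
    obtain ⟨r, hr⟩ := hx x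
    rw [← hm r] at hr
    exact hr.imp fun y hy => hy.2
  have hi : Function.Injective Φ := (injective_iff_map_eq_zero Φ).2 fun x h0 => by
    obtain ⟨r, hr⟩ := hx x
    have hr' : ∀ y ∈ Submodule.span B (e '' c r), Φ y ∈ Submodule.span B (e '' c r) :=
      fun y hy => hm r ▸ Submodule.mem_map_of_mem hy
    haveI := Module.Finite.span_of_finite B ((hf r).image e)
    have := OrzechProperty.injective_of_surjective_endomorphism (Φ.restrict hr') fun y => by
      obtain ⟨z, hz, h⟩ : y.1 ∈ (Submodule.span B (e '' c r)).map Φ := (hm r).symm ▸ y.2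
      exact ⟨⟨z, hz⟩, Subtype.ext h⟩
    exact congrArg Subtype.val ((injective_iff_map_eq_zero _).1 this ⟨x, hr⟩ (Subtype.ext h0))
  exact ⟨e.map (LinearEquiv.ofBijective Φ ⟨hi, hs⟩), hΦ⟩

theorem fin_ord (r : ℕ) : {m : Fin 4 →₀ ℕ | ∑ l, m l ≤ r}.Finite := by
  simpa only [Finsupp.degree_eq_sum] using Finsupp.finite_of_degree_le (σ := Fin 4) r

end Gen

variable {I : Type} [SmallCategory I] {D : CD I} {G : Grp} {s : ℂ} {K : GK G}

/-- The sign of an insertion. -/
def sgI (a : Fin 3) (S : Finset (Fin 3)) : ℤ := (-1) ^ (S.filter (· < a)).card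

/-- A basis on which the ghosts act by the exterior product. -/
structure VB (P : HG (K.gs D s)) (n : ℕ) : Type 1 where
  e : ∀ X : QO D, Module.Basis (Finset (Fin 3) × (Fin 4 →₀ ℕ) × Fin n) (RQ G s X) (P.K X).M.V
  i_mem : ∀ X a S β, a ∈ S → P.i X a (e X (S, β)) = 0
  i_ins : ∀ X a S β, a ∉ S → P.i X a (e X (S, β)) =
    (-1 : RQ G s X) ^ (S.filter (· < a)).card • e X (insert a S, β)

namespace VB

variable {P : HG (K.gs D s)} {n : ℕ} (V : VB P n)

theorem i_e (X : QO D) {a S} (h : a ∉ S) (β) :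
    P.i X a (V.e X (S, β)) = sgI a S • V.e X (insert a S, β) := by
  rw [V.i_ins X a S β h, sgI, ← Int.cast_smul_eq_zsmul (RQ G s X), Int.cast_pow, Int.cast_neg,
    Int.cast_one]

theorem e_ins (X : QO D) {a S} (h : a ∉ S) (β) :
    V.e X (insert a S, β) = sgI a S • P.i X a (V.e X (S, β)) := by
  rw [V.i_e X h, smul_smul, sgI, ← mul_pow, neg_one_mul, neg_neg, one_pow, one_smul]

/-- Induction from the vacuum. -/
theorem ind (X : QO D) {Q : (P.K X).M.V → Prop} (zero : Q 0) (vac : ∀ β, Q (V.e X (∅, β)))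
    (add : ∀ x y, Q x → Q y → Q (x + y)) (smul : ∀ (a : RQ G s X) x, Q x → Q (a • x))
    (gh : ∀ a x, Q x → Q (P.i X a x)) (x : (P.K X).M.V) : Q x := by
  induction (V.e X).mem_span x using Submodule.span_induction with
  | mem y hy =>
    obtain ⟨⟨S, β⟩, rfl⟩ := hy
    induction S using Finset.induction_on with
    | empty => exact vac β
    | insert a S h ih =>
      rw [V.e_ins X h, ← Int.cast_smul_eq_zsmul (RQ G s X)]
      exact smul _ _ (gh _ _ ih)
  | zero => exact zero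
  | add y z _ _ hy hz => exact add _ _ hy hz
  | smul a y _ hy => exact smul _ _ hy

theorem e_gr (h0 : ∀ (X : QO D) β, V.e X (∅, β) ∈ (P.K X).M.gr 0) (X : QO D) (S : Finset (Fin 3)) (β) :
    V.e X (S, β) ∈ (P.K X).M.gr (-(S.card : ℤ)) := by
  induction S using Finset.induction_on with
  | empty => exact h0 X β
  | insert a S h ih =>
    rw [V.e_ins X h, Finset.card_insert_of_notMem h, Nat.cast_succ, neg_add, ← sub_eq_add_neg]
    exact zsmul_mem (P.i_gr X a _ _ ih) _

theorem act_e {X : QO D} {v : Derivation ℂ (RQ G s X) (RQ G s X)} {c : Fin 4 → RQ G s X}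
    (h0 : ∀ m k, (P.K X).C.act v (V.e X (∅, m, k)) =
      ∑ l, c l • V.e X (∅, m + Finsupp.single l 1, k)) (S m k) :
    (P.K X).C.act v (V.e X (S, m, k)) = ∑ l, c l • V.e X (S, m + Finsupp.single l 1, k) := by
  induction S using Finset.induction_on with
  | empty => exact h0 m k
  | insert a S h ih =>
    simp only [V.e_ins X h]
    rw [← actL_apply, map_zsmul, actL_apply, ← P.i_act X, ih, map_sum, Finset.smul_sum]
    exact Finset.sum_congr rfl fun l _ => by rw [map_smul, smul_comm]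

/-- The span of the basis vectors of order `≤ r` with less than `q` ghosts. -/
abbrev Fl (X : QO D) (r q : ℕ) : Submodule (RQ G s X) (P.K X).M.V :=
  Submodule.span (RQ G s X) {p | ∃ (S' : Finset (Fin 3)) (m' : Fin 4 →₀ ℕ) (k' : Fin n),
    ∑ l, m' l ≤ r ∧ S'.card < q ∧ p = V.e X (S', m', k')}

/-- The span of the vacuum vectors of order `≤ r`. -/
abbrev F0 (X : QO D) (r : ℕ) : Submodule (RQ G s X) (P.K X).M.V :=
  Submodule.span (RQ G s X) {p | ∃ (m' : Fin 4 →₀ ℕ) (k' : Fin n), ∑ l, m' l ≤ r ∧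
    p = V.e X (∅, m', k')}

theorem Fl_mono (X : QO D) {r r' q q' : ℕ} (h : r ≤ r') (h' : q ≤ q') :
    V.Fl X r q ≤ V.Fl X r' q' :=
  Submodule.span_mono fun _ ⟨S, m, k, h1, h2, h3⟩ => ⟨S, m, k, h1.trans h, h2.trans_le h', h3⟩

theorem F0_le (X : QO D) (r : ℕ) : V.F0 X r ≤ V.Fl X r 1 :=
  Submodule.span_mono fun _ ⟨m, k, h1, h3⟩ => ⟨∅, m, k, h1, Nat.one_pos, h3⟩

theorem e_Fl (X : QO D) (S m k) : V.e X (S, m, k) ∈ V.Fl X (∑ l, m l) (S.card + 1) :=
  Submodule.subset_span ⟨S, m, k, le_rfl, Nat.lt_succ_self _, rfl⟩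

theorem i_Fl (X : QO D) (a : Fin 3) {r q : ℕ} {x} (h : x ∈ V.Fl X r q) :
    P.i X a x ∈ V.Fl X r (q + 1) := by
  refine (Submodule.span_le (p := (V.Fl X r (q + 1)).comap (P.i X a))).2 ?_ h
  rintro _ ⟨S, m, k, h1, h2, rfl⟩
  change P.i X a _ ∈ V.Fl X r (q + 1)
  by_cases ha : a ∈ S
  · rw [V.i_mem X a S _ ha]; exact zero_mem _
  · rw [V.i_e X ha]
    refine zsmul_mem (Submodule.subset_span ?_) _
    exact ⟨_, m, k, h1, by rw [Finset.card_insert_of_notMem ha]; omega, rfl⟩

section Ord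

variable (d0 : ∀ (X : QO D) β, (P.K X).M.d (V.e X (∅, β)) = 0)
  (l0 : ∀ (X : QO D) a m k, lieOp (P.K X) (P.i X a) (V.e X (∅, m, k)) ∈ V.F0 X (∑ l, m l + 1))

include l0 in
theorem lie_ord (X : QO D) (a S m k) : lieOp (P.K X) (P.i X a) (V.e X (S, m, k)) ∈
    V.Fl X (∑ l, m l + 1) (S.card + 1) := by
  induction S using Finset.induction_on with
  | empty => exact V.F0_le X _ (l0 X a m k)
  | insert b S h ih =>
    rw [V.e_ins X h, map_zsmul, sub_eq_iff_eq_add.1 (P.i_br X a b _),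
      Finset.card_insert_of_notMem h]
    exact zsmul_mem (add_mem (sum_mem fun c _ => Submodule.smul_of_tower_mem _ _
      (V.Fl_mono X (Nat.le_succ _) le_rfl (V.i_Fl X c (V.e_Fl X S m k)))) (V.i_Fl X b ih)) _

include d0 l0 in
theorem d_ord (X : QO D) (S : Finset (Fin 3)) (m : Fin 4 →₀ ℕ) (k) :
    (P.K X).M.d (V.e X (S, m, k)) ∈ V.Fl X (∑ l, m l + 1) S.card := by
  induction S using Finset.induction_on with
  | empty => rw [d0]; exact zero_mem _
  | insert b S h ih =>
    rw [V.e_ins X h, map_zsmul, eq_sub_of_add_eq (lieOp_apply (P.K X) (P.i X b) _).symm,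
      Finset.card_insert_of_notMem h]
    exact zsmul_mem (sub_mem (V.lie_ord l0 X b S m k) (V.i_Fl X b ih)) _

end Ord

theorem t_i {X Y : QO D} (u : Ar G s X Y) (b x) :
    (P.t u).f (P.i X b x) = ∑ a, adm G (qh u) a b • P.i Y a ((P.t u).f x) := P.t_i u b x

theorem t_i1 {X Y : QO D} (u : Ar G s X Y) (h : QM.h u = 1) (b x) :
    (P.t u).f (P.i X b x) = P.i Y b ((P.t u).f x) := by
  rw [t_i, show qh u = 1 from h, K.adm_one]
  simp only [one_apply, ite_smul, one_smul, zero_smul, Finset.sum_ite_eq', Finset.mem_univ, if_true]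

theorem i_t {X Y : QO D} (u : Ar G s X Y) (a x) : P.i Y a ((P.t u).f x) =
    ∑ b, adm G (qh u).adjugate b a • (P.t u).f (P.i X b x) := by
  simp only [t_i, Finset.smul_sum, smul_smul]
  rw [Finset.sum_comm]
  simp only [← Finset.sum_smul, mul_comm (adm G (qh u).adjugate _ _), ← Matrix.mul_apply,
    K.adm_mul_adj (qpt u), one_apply, ite_smul, one_smul, zero_smul, Finset.sum_ite_eq',
    Finset.mem_univ, if_true]

theorem t_one {X Y : QO D} (u : Ar G s X Y) (h : QM.h u = 1)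
    (h0 : ∀ β, (P.t u).f (V.e X (∅, β)) = V.e Y (∅, β)) (γ) : (P.t u).f (V.e X γ) = V.e Y γ := by
  obtain ⟨S, β⟩ := γ
  induction S using Finset.induction_on with
  | empty => exact h0 β
  | insert b S hb ih => rw [V.e_ins X hb, V.e_ins Y hb, map_zsmul, t_i1 u h, ih]

theorem bc {X Y : QO D} (u : Ar G s X Y)
    (h1 : ∀ m k, (P.t u).f (V.e X (∅, m, k)) ∈ V.F0 Y (∑ l, m l))
    (h2 : ∀ m k, V.e Y (∅, m, k) ∈ Submodule.span (RQ G s Y)
      {p | ∃ (m' : Fin 4 →₀ ℕ) (k' : Fin n), ∑ l, m' l ≤ ∑ l, m l ∧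
        p = (P.t u).f (V.e X (∅, m', k'))}) :
    ∃ e' : Module.Basis (Finset (Fin 3) × (Fin 4 →₀ ℕ) × Fin n) (RQ G s Y) (P.K Y).M.V,
      ∀ γ, e' γ = (P.t u).f (V.e X γ) := by
  refine basis_of_fil (V.e Y) _ (fun r => {γ | ∑ l, γ.2.1 l ≤ r}) (fun r => ?_)
    (fun r r' h γ hγ => le_trans hγ h) (fun γ => ⟨∑ l, γ.2.1 l, le_rfl (a := ∑ l, γ.2.1 l)⟩) ?_ ?_
  · exact (Set.finite_univ.prod ((fin_ord r).prod Set.finite_univ)).subset
      fun γ h => ⟨trivial, h, trivial⟩
  · rintro r ⟨S, m, k⟩ hr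
    have : (P.t u).f (V.e X (S, m, k)) ∈ V.Fl Y (∑ l, m l) (S.card + 1) := by
      induction S using Finset.induction_on with
      | empty => exact V.F0_le Y _ (h1 m k)
      | insert b S hb ih =>
        rw [V.e_ins X hb, map_zsmul, t_i, Finset.card_insert_of_notMem hb]
        exact zsmul_mem (sum_mem fun a _ => Submodule.smul_mem _ _ (V.i_Fl Y a (ih hr))) _
    refine Submodule.span_mono ?_ this
    rintro _ ⟨S, m, k, h, _, rfl⟩
    exact ⟨(S, m, k), h.trans hr, rfl⟩
  · rintro r ⟨S, m, k⟩ hr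
    induction S using Finset.induction_on with
    | empty =>
      refine Submodule.span_mono ?_ (h2 m k)
      rintro _ ⟨m, k, h, rfl⟩
      exact ⟨(∅, m, k), h.trans hr, rfl⟩
    | insert b S hb ih =>
      rw [V.e_ins Y hb]
      refine zsmul_mem (Submodule.mem_comap.1 (Submodule.span_le.2 ?_ (ih hr))) _
      rintro _ ⟨⟨S', β⟩, h, rfl⟩
      change P.i Y b _ ∈ Submodule.span _ _
      rw [i_t]
      refine sum_mem fun a _ => Submodule.smul_mem _ _ ?_
      by_cases ha : a ∈ S'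
      · rw [V.i_mem X a S' _ ha, map_zero]; exact zero_mem _
      · rw [V.i_e X ha, map_zsmul]
        refine zsmul_mem (Submodule.subset_span ?_) _
        exact ⟨(insert a S', β), h, rfl⟩

section J

variable (j : ∀ X : QO D, Fin 3 → ((P.K X).M.V →ₗ[RQ G s X] (P.K X).M.V))
  (j_i : ∀ (X : QO D) a b p, j X a (P.i X b p) = (if a = b then p else 0) - P.i X b (j X a p))
  (j_e : ∀ (X : QO D) a β, j X a (V.e X (∅, β)) = 0)

include j_e in
theorem j_F0 (X : QO D) (a) {r x} (h : x ∈ V.F0 X r) : j X a x = 0 := by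
  refine (Submodule.span_le (p := LinearMap.ker (j X a))).2 ?_ h
  rintro _ ⟨m, k, -, rfl⟩
  exact j_e X a _

include j_i j_e in
theorem j_t {X Y : QO D} (u : Ar G s X Y)
    (h1 : ∀ m k, (P.t u).f (V.e X (∅, m, k)) ∈ V.F0 Y (∑ l, m l)) (a p) :
    j Y a ((P.t u).f p) = ∑ b, adm G (qh u) a b • (P.t u).f (j X b p) := by
  induction p using V.ind X with
  | zero => simp
  | vac β => simp only [V.j_F0 j j_e Y a (h1 β.1 β.2), j_e, map_zero, smul_zero,
      Finset.sum_const_zero]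
  | add x y hx hy => simp only [map_add, hx, hy, smul_add, Finset.sum_add_distrib]
  | smul c x hx =>
    simp only [map_smul, P.t_smul u, hx, Finset.smul_sum]
    exact Finset.sum_congr rfl fun b _ => smul_comm _ _ _
  | gh c x hx =>
    simp only [t_i u c, map_sum, map_smul, j_i, hx, map_sub, smul_sub, Finset.sum_sub_distrib,
      apply_ite (P.t u).f, map_zero, smul_ite, smul_zero, Finset.sum_ite_eq, Finset.sum_ite_eq',
      Finset.mem_univ, if_true, Finset.smul_sum]
    rw [Finset.sum_comm]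
    exact congrArg _ (Finset.sum_congr rfl fun b _ => Finset.sum_congr rfl fun e _ =>
      smul_comm _ _ _)

include j_i j_e in
theorem j_comm (X : QO D) (ρ : (P.K X).M.V →ₗ[RQ G s X] (P.K X).M.V)
    (hi : ∀ b p, ρ (P.i X b p) = P.i X b (ρ p))
    (h1 : ∀ m k, ρ (V.e X (∅, m, k)) ∈ V.F0 X (∑ l, m l)) (a p) : j X a (ρ p) = ρ (j X a p) := by
  induction p using V.ind X with
  | zero => simp
  | vac β => rw [V.j_F0 j j_e X a (h1 β.1 β.2), j_e, map_zero]
  | add x y hx hy => simp only [map_add, hx, hy]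
  | smul c x hx => simp only [map_smul, hx]
  | gh c x hx => simp only [hi, j_i, hx, map_sub, apply_ite ρ, map_zero]

end J

end VB

end

end Vale.Agent.P286EX
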